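import Mathlib

/-!
# P308: near-perfect versus perfect matchings in graphs of bounded independence number

For a finite graph `G` with a perfect matching we show
`#(near-perfect matchings) ≤ |V| ^ (3 α(G) + 2) * #(perfect matchings)`.

A matching is handled through its partner map `τ` (an involution fixing the holes).  An augmenting
path `w 0, w 1, τ (w 1), w 2, τ (w 2), ..., w L` is coded by the sequence `w`.
* `exists_aug`: a perfect matching yields an augmenting path (Berge), via the minimal period of the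
  composition of the two partner maps.
* `shorten`: an edge between `τ (w i)` and `τ (w j)` (`i + 2 ≤ j`) together with an edge between
  `w j` and `w b` (`j < b`) gives a strictly shorter augmenting path.
* `bound`: hence a shortest augmenting path has `L ≤ 3 α(G) + 1`.
* `aug`, `aug_inj`: augmenting gives a perfect matching from which, together with the path, the
  near-perfect matching can be recovered.
-/

namespace Vale.Agent.Results.P308.BoundedIndepNum

variable {V : Type*}

/-- `w 0, ..., w L` codes an augmenting path for the matching with partner map `τ`: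
the path is `w 0, w 1, τ (w 1), w 2, τ (w 2), ..., w L`. -/
def IsAug (G : SimpleGraph V) (τ : V → V) (L : ℕ) (w : ℕ → V) : Prop :=
  1 ≤ L ∧ τ (w 0) = w 0 ∧ τ (w L) = w L ∧ (∀ t < L, G.Adj (τ (w t)) (w (t + 1))) ∧
    (∀ s ≤ L, ∀ t ≤ L, w s = w t → s = t) ∧ (∀ s ≤ L, ∀ t ≤ L, τ (w s) = w t → s = t)

lemma iter_rel {τ τ' : V → V} (hτ : ∀ x, τ (τ x) = x) (hτ' : ∀ x, τ' (τ' x) = x) (t : ℕ) (x : V) :
    (τ' ∘ τ)^[t] (τ ((τ' ∘ τ)^[t] x)) = τ x := by
  induction t generalizing x with
  | zero => rfl
  | succ t ih =>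
    rw [Function.iterate_succ_apply, Function.iterate_succ_apply']
    simp only [Function.comp]
    rw [hτ, hτ']
    exact ih x

/-- Berge: a perfect matching `τ'` produces an augmenting path starting from any hole `u`. -/
lemma exists_aug [Finite V] (G : SimpleGraph V) {τ τ' : V → V} (hτ : ∀ x, τ (τ x) = x)
    (hτ' : ∀ x, τ' (τ' x) = x) (hfix : ∀ x, τ' x ≠ x) (hadj : ∀ x, G.Adj x (τ' x)) {u : V}
    (hu : τ u = u) : ∃ L w, IsAug G τ L w := by
  set S : V → V := τ' ∘ τ with hS
  have hSinj : Function.Injective S := by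
    intro a b hab
    have h1 : τ' (τ a) = τ' (τ b) := hab
    have h2 : τ a = τ b := by rw [← hτ' (τ a), h1, hτ']
    rw [← hτ a, h2, hτ]
  have hper : u ∈ Function.periodicPts S := hSinj.mem_periodicPts u
  set m := Function.minimalPeriod S u with hm
  have hmpos : 0 < m := Function.minimalPeriod_pos_of_mem_periodicPts hper
  have hmper : S^[m] u = u := Function.isPeriodicPt_minimalPeriod S u
  have hdvd : ∀ k, S^[k] u = u → m ∣ k := fun k hk =>
    Function.IsPeriodicPt.minimalPeriod_dvd hk
  have hrel : ∀ t, S^[t] (τ (S^[t] u)) = u := by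
    intro t
    have := iter_rel hτ hτ' t u
    rw [hu] at this
    exact this
  -- the period is even
  have heven : Even m := by
    by_contra hodd
    rw [Nat.not_even_iff_odd] at hodd
    obtain ⟨d, hd⟩ := hodd
    have h1 : S^[d] (S^[d + 1] u) = u := by
      rw [← Function.iterate_add_apply]
      have : d + (d + 1) = m := by omega
      rw [this]; exact hmper
    have h2 : τ (S^[d] u) = S^[d + 1] u := by
      apply (hSinj.iterate d)
      rw [hrel d, h1]
    rw [Function.iterate_succ_apply'] at h2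
    exact hfix _ h2.symm
  obtain ⟨L, hL⟩ := heven
  have hLpos : 1 ≤ L := by omega
  refine ⟨L, fun t => S^[t] u, hLpos, hu, ?_, ?_, ?_, ?_⟩
  · apply (hSinj.iterate L)
    rw [hrel L, ← Function.iterate_add_apply, ← hL]
    exact hmper.symm
  · intro t _
    simp only
    rw [Function.iterate_succ_apply']
    exact hadj _
  · intro s hs t ht hst
    simp only at hst
    by_contra hne
    rcases Nat.lt_or_gt_of_ne hne with h | h
    · have e : t = s + (t - s) := by omega
      rw [e, Function.iterate_add_apply] at hst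
      have := hdvd _ ((hSinj.iterate s) hst).symm
      have := Nat.le_of_dvd (by omega) this
      omega
    · have e : s = t + (s - t) := by omega
      rw [e, Function.iterate_add_apply] at hst
      have := hdvd _ ((hSinj.iterate t) hst)
      have := Nat.le_of_dvd (by omega) this
      omega
  · intro s hs t ht hst
    simp only at hst
    have h1 := hrel s
    rw [hst, ← Function.iterate_add_apply] at h1
    obtain ⟨c, hc⟩ := hdvd _ h1
    have : c = 0 ∨ c = 1 := by
      rcases c with _ | _ | c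
      · left; rfl
      · right; rfl
      · exfalso
        have : m * (c + 1 + 1) ≥ m * 2 := Nat.mul_le_mul_left m (by omega)
        omega
    rcases this with rfl | rfl <;> omega

/-- the shortcut -/
lemma shorten (G : SimpleGraph V) {τ : V → V} (hτ : ∀ x, τ (τ x) = x) {L : ℕ} {w : ℕ → V}
    (h : IsAug G τ L w) {i j b : ℕ} (hij : i + 2 ≤ j) (hjb : j < b) (hb : b ≤ L)
    (hE : G.Adj (τ (w i)) (τ (w j))) (hO : G.Adj (w j) (w b)) :
    ∃ L' w', L' < L ∧ IsAug G τ L' w' := by
  obtain ⟨h1, h2, h3, h4, h5, h6⟩ := h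
  have hτinj : Function.Injective τ := fun a c hac => by rw [← hτ a, hac, hτ]
  refine ⟨L - b + i + 2, fun t => if t ≤ i then w t else if t = i + 1 then τ (w j)
    else w (t + b - i - 2), by omega, by omega, ?_, ?_, ?_, ?_, ?_⟩
  · simp [h2]
  · have e1 : ¬ (L - b + i + 2 ≤ i) := by omega
    have e2 : ¬ (L - b + i + 2 = i + 1) := by omega
    have e3 : L - b + i + 2 + b - i - 2 = L := by omega
    simp only [if_neg e1, if_neg e2, e3, h3]
  · intro t ht
    simp only
    by_cases c1 : t + 1 ≤ i
    · rw [if_pos (by omega : t ≤ i), if_pos c1]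
      exact h4 t (by omega)
    · by_cases c2 : t = i
      · subst c2
        rw [if_pos le_rfl, if_neg (by omega), if_pos rfl]
        exact hE
      · by_cases c3 : t = i + 1
        · subst c3
          rw [if_neg (by omega), if_pos rfl, if_neg (by omega), if_neg (by omega), hτ]
          have : i + 1 + 1 + b - i - 2 = b := by omega
          rw [this]
          exact hO
        · rw [if_neg (by omega), if_neg c3, if_neg (by omega), if_neg (by omega)]
          have : t + 1 + b - i - 2 = (t + b - i - 2) + 1 := by omega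
          rw [this]
          exact h4 _ (by omega)
  · intro s hs t ht hst
    simp only at hst
    split_ifs at hst with a1 a2 a3 a4 a5 a6 a7 a8
    · exact h5 s (by omega) t (by omega) hst
    · have := h6 j (by omega) s (by omega) hst.symm
      omega
    · have := h5 s (by omega) _ (by omega) hst
      omega
    · have := h6 j (by omega) t (by omega) hst
      omega
    · omega
    · have := h6 j (by omega) _ (by omega) hst
      omega
    · have := h5 _ (by omega) t (by omega) hst
      omega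
    · have := h6 j (by omega) _ (by omega) hst.symm
      omega
    · have := h5 _ (by omega) _ (by omega) hst
      omega
  · intro s hs t ht hst
    simp only at hst
    split_ifs at hst with a1 a2 a3 a4 a5 a6 a7 a8
    · exact h6 s (by omega) t (by omega) hst
    · have := h5 s (by omega) j (by omega) (hτinj hst)
      omega
    · have := h6 s (by omega) _ (by omega) hst
      omega
    · rw [hτ] at hst
      have := h5 j (by omega) t (by omega) hst
      omega
    · omega
    · rw [hτ] at hst
      have := h5 j (by omega) _ (by omega) hst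
      omega
    · have := h6 _ (by omega) t (by omega) hst
      omega
    · have := h5 _ (by omega) j (by omega) (hτinj hst)
      omega
    · have := h6 _ (by omega) _ (by omega) hst
      omega

lemma card_le_of_indep [Finite V] (G : SimpleGraph V) (A : Finset ℕ) (f : ℕ → V)
    (hinj : Set.InjOn f A) (hind : ∀ j ∈ A, ∀ j' ∈ A, j < j' → ¬ G.Adj (f j) (f j')) :
    A.card ≤ G.indepNum := by
  classical
  rw [← Finset.card_image_of_injOn hinj]
  apply SimpleGraph.IsIndepSet.card_le_indepNum
  intro x hx y hy hxy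
  simp only [Finset.coe_image, Set.mem_image, Finset.mem_coe] at hx hy
  obtain ⟨j, hj, rfl⟩ := hx
  obtain ⟨j', hj', rfl⟩ := hy
  have hne : j ≠ j' := fun h => hxy (by rw [h])
  rcases Nat.lt_or_gt_of_ne hne with h | h
  · exact hind j hj j' hj' h
  · exact fun hadj => hind j' hj' j hj h hadj.symm

lemma bound [Finite V] (G : SimpleGraph V) {τ : V → V} (hτ : ∀ x, τ (τ x) = x) {L : ℕ} {w : ℕ → V}
    (h : IsAug G τ L w) (hmin : ∀ L' w', IsAug G τ L' w' → L ≤ L') :
    L ≤ 3 * G.indepNum + 1 := by
  classical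
  have hτinj : Function.Injective τ := fun a c hac => by rw [← hτ a, hac, hτ]
  obtain ⟨h1, h2, h3, h4, h5, h6⟩ := id h
  set J := Finset.Icc 1 (L - 1) with hJ
  set A0 := J.filter (fun j => Even j ∧ ∀ i, i + 2 ≤ j → ¬ G.Adj (τ (w i)) (τ (w j))) with hA0
  set A1 := J.filter (fun j => ¬ Even j ∧ ∀ i, i + 2 ≤ j → ¬ G.Adj (τ (w i)) (τ (w j))) with hA1
  set B := J.filter (fun j => ∀ b, j < b → b ≤ L → ¬ G.Adj (w j) (w b)) with hB
  have hsub : J ⊆ (A0 ∪ A1) ∪ B := by
    intro j hj
    by_contra hcon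
    simp only [Finset.mem_union, not_or] at hcon
    obtain ⟨⟨c0, c1⟩, c2⟩ := hcon
    have hjJ := Finset.mem_Icc.mp hj
    have hb : ∃ b, j < b ∧ b ≤ L ∧ G.Adj (w j) (w b) := by
      by_contra hno
      apply c2
      rw [hB, Finset.mem_filter]
      refine ⟨hj, fun b hb1 hb2 hadj => hno ⟨b, hb1, hb2, hadj⟩⟩
    have hi : ∃ i, i + 2 ≤ j ∧ G.Adj (τ (w i)) (τ (w j)) := by
      by_contra hno
      have hall : ∀ i, i + 2 ≤ j → ¬ G.Adj (τ (w i)) (τ (w j)) :=
        fun i hi hadj => hno ⟨i, hi, hadj⟩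
      by_cases hev : Even j
      · apply c0; rw [hA0, Finset.mem_filter]; exact ⟨hj, hev, hall⟩
      · apply c1; rw [hA1, Finset.mem_filter]; exact ⟨hj, hev, hall⟩
    obtain ⟨b, hb1, hb2, hb3⟩ := hb
    obtain ⟨i, hi1, hi2⟩ := hi
    obtain ⟨L', w', hlt, haug⟩ := shorten G hτ h hi1 hb1 hb2 hi2 hb3
    have := hmin L' w' haug
    omega
  have inJ : ∀ j ∈ J, j ≤ L := fun j hj => by
    have := Finset.mem_Icc.mp hj; omega
  have cA0 : A0.card ≤ G.indepNum := by
    apply card_le_of_indep G A0 (fun j => τ (w j))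
    · intro j hj j' hj' hjj
      have a := (Finset.mem_filter.mp hj).1
      have a' := (Finset.mem_filter.mp hj').1
      exact h5 j (inJ j a) j' (inJ j' a') (hτinj hjj)
    · intro j hj j' hj' hlt
      have a := (Finset.mem_filter.mp hj).2
      have a' := (Finset.mem_filter.mp hj').2
      apply a'.2 j
      obtain ⟨x, hx⟩ := a.1
      obtain ⟨y, hy⟩ := a'.1
      omega
  have cA1 : A1.card ≤ G.indepNum := by
    apply card_le_of_indep G A1 (fun j => τ (w j))
    · intro j hj j' hj' hjj
      have a := (Finset.mem_filter.mp hj).1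
      have a' := (Finset.mem_filter.mp hj').1
      exact h5 j (inJ j a) j' (inJ j' a') (hτinj hjj)
    · intro j hj j' hj' hlt
      have a := (Finset.mem_filter.mp hj).2
      have a' := (Finset.mem_filter.mp hj').2
      apply a'.2 j
      obtain ⟨x, hx⟩ := Nat.not_even_iff_odd.mp a.1
      obtain ⟨y, hy⟩ := Nat.not_even_iff_odd.mp a'.1
      omega
  have cB : B.card ≤ G.indepNum := by
    apply card_le_of_indep G B w
    · intro j hj j' hj' hjj
      have a := (Finset.mem_filter.mp hj).1
      have a' := (Finset.mem_filter.mp hj').1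
      exact h5 j (inJ j a) j' (inJ j' a') hjj
    · intro j hj j' hj' hlt
      have a := (Finset.mem_filter.mp hj).2
      have a' := (Finset.mem_filter.mp hj').1
      exact a j' hlt (inJ j' a')
  have hcard : J.card = L - 1 := by simp [hJ]
  have := Finset.card_le_card hsub
  have u1 := Finset.card_union_le (A0 ∪ A1) B
  have u2 := Finset.card_union_le A0 A1
  omega

open Classical in
/-- the partner map of the matching augmented along the path coded by `w` -/
noncomputable def aug (τ : V → V) (L : ℕ) (w : ℕ → V) (x : V) : V :=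
  if h : ∃ t, t < L ∧ x = τ (w t) then w (Classical.choose h + 1)
  else if h' : ∃ t, t < L ∧ x = w (t + 1) then τ (w (Classical.choose h'))
  else τ x

section
variable {G : SimpleGraph V} {τ : V → V} {L : ℕ} {w : ℕ → V}

lemma aug_even (hτ : ∀ x, τ (τ x) = x) (h : IsAug G τ L w) {t : ℕ} (ht : t < L) :
    aug τ L w (τ (w t)) = w (t + 1) := by
  have hτinj : Function.Injective τ := fun a c hac => by rw [← hτ a, hac, hτ]
  have hex : ∃ s, s < L ∧ τ (w t) = τ (w s) := ⟨t, ht, rfl⟩
  unfold aug
  rw [dif_pos hex]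
  obtain ⟨hs1, hs2⟩ := Classical.choose_spec hex
  have := h.2.2.2.2.1 t ht.le _ hs1.le (hτinj hs2)
  rw [← this]

/-- interior points of the path are not holes -/
lemma not_even_form (hfix : ∀ x, τ x = x → x = w 0 ∨ x = w L) (h : IsAug G τ L w) {t : ℕ}
    (ht : t < L) : ¬ ∃ s, s < L ∧ w (t + 1) = τ (w s) := by
  rintro ⟨s, hs, hst⟩
  have e := h.2.2.2.2.2 s hs.le (t + 1) (by omega) hst.symm
  subst e
  rcases hfix _ hst.symm with h0 | h0
  · have := h.2.2.2.2.1 (t + 1) hs.le 0 (by omega) h0
    omega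
  · have := h.2.2.2.2.1 (t + 1) hs.le L le_rfl h0
    omega

lemma aug_odd (hfix : ∀ x, τ x = x → x = w 0 ∨ x = w L) (h : IsAug G τ L w) {t : ℕ}
    (ht : t < L) : aug τ L w (w (t + 1)) = τ (w t) := by
  have hex : ∃ s, s < L ∧ w (t + 1) = w (s + 1) := ⟨t, ht, rfl⟩
  unfold aug
  rw [dif_neg (not_even_form hfix h ht), dif_pos hex]
  obtain ⟨hs1, hs2⟩ := Classical.choose_spec hex
  have := h.2.2.2.2.1 (t + 1) (by omega) _ (by omega) hs2
  have e : Classical.choose hex = t := by omega
  rw [e]

lemma aug_off {x : V} (h1 : ¬ ∃ t, t < L ∧ x = τ (w t)) (h2 : ¬ ∃ t, t < L ∧ x = w (t + 1)) :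
    aug τ L w x = τ x := by
  unfold aug
  rw [dif_neg h1, dif_neg h2]

lemma aug_invol (hτ : ∀ x, τ (τ x) = x) (hfix : ∀ x, τ x = x → x = w 0 ∨ x = w L)
    (h : IsAug G τ L w) (x : V) : aug τ L w (aug τ L w x) = x := by
  by_cases h1 : ∃ t, t < L ∧ x = τ (w t)
  · obtain ⟨t, ht, rfl⟩ := h1
    rw [aug_even hτ h ht, aug_odd hfix h ht]
  · by_cases h2 : ∃ t, t < L ∧ x = w (t + 1)
    · obtain ⟨t, ht, rfl⟩ := h2
      rw [aug_odd hfix h ht, aug_even hτ h ht]
    · rw [aug_off h1 h2, aug_off, hτ]
      · rintro ⟨t, ht, hx⟩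
        have hx' : x = w t := by rw [← hτ x, hx, hτ]
        rcases Nat.eq_zero_or_pos t with h0 | h0
        · subst h0
          apply h1
          exact ⟨0, ht, by rw [hx', h.2.1]⟩
        · apply h2
          exact ⟨t - 1, by omega, by rw [hx']; congr 1; omega⟩
      · rintro ⟨t, ht, hx⟩
        have hx' : x = τ (w (t + 1)) := by rw [← hτ x, hx]
        by_cases hL : t + 1 < L
        · exact h1 ⟨t + 1, hL, hx'⟩
        · have e : t + 1 = L := by omega
          apply h2
          refine ⟨t, ht, ?_⟩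
          rw [hx', e, h.2.2.1]

lemma aug_ne (hτ : ∀ x, τ (τ x) = x) (hfix : ∀ x, τ x = x → x = w 0 ∨ x = w L)
    (h : IsAug G τ L w) (x : V) : aug τ L w x ≠ x := by
  by_cases h1 : ∃ t, t < L ∧ x = τ (w t)
  · obtain ⟨t, ht, rfl⟩ := h1
    rw [aug_even hτ h ht]
    intro hcon
    have := h.2.2.2.2.2 t ht.le (t + 1) (by omega) hcon.symm
    omega
  · by_cases h2 : ∃ t, t < L ∧ x = w (t + 1)
    · obtain ⟨t, ht, rfl⟩ := h2
      rw [aug_odd hfix h ht]
      intro hcon
      have := h.2.2.2.2.2 t ht.le (t + 1) (by omega) hcon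
      omega
    · rw [aug_off h1 h2]
      intro hcon
      rcases hfix x hcon with h0 | h0
      · apply h1
        exact ⟨0, by have := h.1; omega, by rw [h0, h.2.1]⟩
      · apply h2
        refine ⟨L - 1, by have := h.1; omega, ?_⟩
        rw [h0]; congr 1; have := h.1; omega

lemma aug_adj (hτ : ∀ x, τ (τ x) = x) (hfix : ∀ x, τ x = x → x = w 0 ∨ x = w L)
    (hadj : ∀ x, τ x ≠ x → G.Adj x (τ x)) (h : IsAug G τ L w) (x : V) :
    G.Adj x (aug τ L w x) := by
  by_cases h1 : ∃ t, t < L ∧ x = τ (w t)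
  · obtain ⟨t, ht, rfl⟩ := h1
    rw [aug_even hτ h ht]
    exact h.2.2.2.1 t ht
  · by_cases h2 : ∃ t, t < L ∧ x = w (t + 1)
    · obtain ⟨t, ht, rfl⟩ := h2
      rw [aug_odd hfix h ht]
      exact (h.2.2.2.1 t ht).symm
    · have := aug_ne hτ hfix h x
      rw [aug_off h1 h2] at this ⊢
      exact hadj x this

end

/-- the matching can be recovered from the augmented matching and the path -/
lemma aug_inj {G : SimpleGraph V} {τ₁ τ₂ : V → V} {L : ℕ} {w : ℕ → V}
    (hτ₁ : ∀ x, τ₁ (τ₁ x) = x) (hτ₂ : ∀ x, τ₂ (τ₂ x) = x)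
    (hfix₁ : ∀ x, τ₁ x = x → x = w 0 ∨ x = w L) (hfix₂ : ∀ x, τ₂ x = x → x = w 0 ∨ x = w L)
    (h₁ : IsAug G τ₁ L w) (h₂ : IsAug G τ₂ L w) (heq : aug τ₁ L w = aug τ₂ L w) : τ₁ = τ₂ := by
  have key : ∀ t, t < L → τ₁ (w t) = τ₂ (w t) := by
    intro t ht
    rw [← aug_odd hfix₁ h₁ ht, ← aug_odd hfix₂ h₂ ht, heq]
  funext x
  by_cases h1 : ∃ t, t < L ∧ x = τ₁ (w t)
  · obtain ⟨t, ht, rfl⟩ := h1
    rw [hτ₁, key t ht, hτ₂]
  · by_cases h2 : ∃ t, t < L ∧ x = w (t + 1)
    · obtain ⟨t, ht, rfl⟩ := h2
      by_cases hL : t + 1 < L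
      · exact key _ hL
      · have e : t + 1 = L := by omega
        rw [e, h₁.2.2.1, h₂.2.2.1]
    · have h1' : ¬ ∃ t, t < L ∧ x = τ₂ (w t) := by
        rintro ⟨t, ht, hx⟩
        exact h1 ⟨t, ht, by rw [hx, key t ht]⟩
      rw [← aug_off h1 h2, ← aug_off h1' h2, heq]

/-! ### matchings and partner maps -/

open Classical in
/-- the partner map of a matching (holes are fixed) -/
noncomputable def toInv {G : SimpleGraph V} (M : G.Subgraph) (x : V) : V :=
  if h : ∃ y, M.Adj x y then Classical.choose h else x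

section
variable {G : SimpleGraph V} {M : G.Subgraph}

lemma toInv_of_adj (hM : M.IsMatching) {x y : V} (h : M.Adj x y) : toInv M x = y := by
  have hex : ∃ y, M.Adj x y := ⟨y, h⟩
  unfold toInv
  rw [dif_pos hex]
  exact hM.eq_of_adj_left (Classical.choose_spec hex) h

lemma toInv_of_not_mem {x : V} (h : x ∉ M.verts) : toInv M x = x := by
  unfold toInv
  rw [dif_neg]
  rintro ⟨y, hy⟩
  exact h (M.edge_vert hy)

lemma adj_toInv (hM : M.IsMatching) {x : V} (h : x ∈ M.verts) : M.Adj x (toInv M x) := by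
  obtain ⟨y, hy, _⟩ := hM h
  rw [toInv_of_adj hM hy]
  exact hy

lemma toInv_invol (hM : M.IsMatching) (x : V) : toInv M (toInv M x) = x := by
  by_cases h : x ∈ M.verts
  · exact toInv_of_adj hM (adj_toInv hM h).symm
  · rw [toInv_of_not_mem h, toInv_of_not_mem h]

lemma toInv_eq_self_iff (hM : M.IsMatching) (x : V) : toInv M x = x ↔ x ∉ M.verts := by
  constructor
  · intro h hx
    have := adj_toInv hM hx
    rw [h] at this
    exact M.loopless.irrefl x this
  · exact toInv_of_not_mem

lemma toInv_adj (hM : M.IsMatching) (x : V) (h : toInv M x ≠ x) : G.Adj x (toInv M x) := by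
  have hx : x ∈ M.verts := by
    by_contra hcon
    exact h (toInv_of_not_mem hcon)
  exact M.adj_sub (adj_toInv hM hx)

lemma toInv_inj {M₁ M₂ : G.Subgraph} (h₁ : M₁.IsMatching) (h₂ : M₂.IsMatching)
    (h : toInv M₁ = toInv M₂) : M₁ = M₂ := by
  have hv : M₁.verts = M₂.verts := by
    ext x
    have a := toInv_eq_self_iff h₁ x
    have b := toInv_eq_self_iff h₂ x
    rw [h] at a
    have := a.symm.trans b
    exact not_iff_not.mp this
  apply SimpleGraph.Subgraph.ext hv
  funext x y
  apply propext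
  constructor
  · intro hxy
    have e := toInv_of_adj h₁ hxy
    rw [h] at e
    rw [← e]
    exact adj_toInv h₂ (hv ▸ M₁.edge_vert hxy)
  · intro hxy
    have e := toInv_of_adj h₂ hxy
    rw [← h] at e
    rw [← e]
    exact adj_toInv h₁ (hv ▸ M₂.edge_vert hxy)

end

/-- the perfect matching with a given fixed point free partner map -/
def ofInv (G : SimpleGraph V) (σ : V → V) (h1 : ∀ x, σ (σ x) = x) (h3 : ∀ x, G.Adj x (σ x)) :
    G.Subgraph where
  verts := Set.univ
  Adj x y := σ x = y
  adj_sub := by rintro x y rfl; exact h3 x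
  edge_vert := fun _ => trivial
  symm := ⟨by rintro x y rfl; exact h1 x⟩

lemma ofInv_perfect (G : SimpleGraph V) (σ : V → V) (h1 : ∀ x, σ (σ x) = x)
    (h3 : ∀ x, G.Adj x (σ x)) : (ofInv G σ h1 h3).IsPerfectMatching := by
  rw [SimpleGraph.Subgraph.isPerfectMatching_iff]
  intro v
  exact ⟨σ v, rfl, fun y hy => Eq.symm hy⟩

lemma ofInv_inj (G : SimpleGraph V) {σ₁ σ₂ : V → V} (h1 : ∀ x, σ₁ (σ₁ x) = x)
    (h3 : ∀ x, G.Adj x (σ₁ x)) (h1' : ∀ x, σ₂ (σ₂ x) = x) (h3' : ∀ x, G.Adj x (σ₂ x))
    (h : ofInv G σ₁ h1 h3 = ofInv G σ₂ h1' h3') : σ₁ = σ₂ := by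
  funext x
  have : (ofInv G σ₁ h1 h3).Adj x (σ₁ x) := rfl
  rw [h] at this
  exact Eq.symm this

lemma IsAug.congr {G : SimpleGraph V} {τ : V → V} {L : ℕ} {w w' : ℕ → V} (h : IsAug G τ L w)
    (hw : ∀ t ≤ L, w' t = w t) : IsAug G τ L w' := by
  obtain ⟨h1, h2, h3, h4, h5, h6⟩ := h
  refine ⟨h1, ?_, ?_, ?_, ?_, ?_⟩
  · rw [hw 0 (by omega)]; exact h2
  · rw [hw L le_rfl]; exact h3
  · intro t ht; rw [hw t ht.le, hw (t + 1) (by omega)]; exact h4 t ht
  · intro s hs t ht; rw [hw s hs, hw t ht]; exact h5 s hs t ht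
  · intro s hs t ht; rw [hw s hs, hw t ht]; exact h6 s hs t ht

/-- every near-perfect matching of a graph with a perfect matching has a short augmenting path -/
lemma exists_data [Finite V] (G : SimpleGraph V) (hPM : ∃ M : G.Subgraph, M.IsPerfectMatching)
    (M : G.Subgraph) (hM : M.IsMatching) (h2 : (M.vertsᶜ).ncard = 2) :
    ∃ L w, IsAug G (toInv M) L w ∧ L ≤ 3 * G.indepNum + 1 ∧ (∀ t, L ≤ t → w t = w L) ∧
      ∀ x, toInv M x = x → x = w 0 ∨ x = w L := by
  classical
  obtain ⟨M', hM'⟩ := hPM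
  obtain ⟨u, v, huv, hset⟩ := Set.ncard_eq_two.mp h2
  have hu : toInv M u = u := by
    rw [toInv_eq_self_iff hM]
    have : u ∈ M.vertsᶜ := by rw [hset]; simp
    exact this
  have hex : ∃ L, ∃ w, IsAug G (toInv M) L w := by
    apply exists_aug G (toInv_invol hM) (toInv_invol hM'.1) _ _ hu
    · intro x hx
      rw [toInv_eq_self_iff hM'.1] at hx
      exact hx (hM'.2 x)
    · intro x
      apply toInv_adj hM'.1
      intro hx
      rw [toInv_eq_self_iff hM'.1] at hx
      exact hx (hM'.2 x)
  obtain ⟨w, hw⟩ := Nat.find_spec hex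
  set L := Nat.find hex with hL
  have hmin : ∀ L' w', IsAug G (toInv M) L' w' → L ≤ L' := fun L' w' h' =>
    Nat.find_min' hex ⟨w', h'⟩
  have hb := bound G (toInv_invol hM) hw hmin
  have hw' : IsAug G (toInv M) L (fun t => w (min t L)) :=
    hw.congr (fun t ht => by simp [min_eq_left ht])
  refine ⟨L, fun t => w (min t L), hw', hb, ?_, ?_⟩
  · intro t ht
    simp [min_eq_right ht]
  · intro x hx
    simp only [Nat.zero_min, min_self]
    rw [toInv_eq_self_iff hM] at hx
    have hxs : x ∈ ({u, v} : Set V) := by rw [← hset]; exact hx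
    have h0 : w 0 ∈ ({u, v} : Set V) := by
      rw [← hset]
      exact (toInv_eq_self_iff hM _).mp hw.2.1
    have hLs : w L ∈ ({u, v} : Set V) := by
      rw [← hset]
      exact (toInv_eq_self_iff hM _).mp hw.2.2.1
    have hne : w 0 ≠ w L := by
      intro h
      have := hw.2.2.2.2.1 0 (by omega) L le_rfl h
      have := hw.1
      omega
    simp only [Set.mem_insert_iff, Set.mem_singleton_iff] at hxs h0 hLs
    rcases hxs with rfl | rfl <;> rcases h0 with a | a <;> rcases hLs with b | b <;>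
      simp_all

theorem result {V : Type*} [Fintype V] (G : SimpleGraph V)
    (hPM : ∃ M : G.Subgraph, M.IsPerfectMatching) :
    Nat.card {M : G.Subgraph // M.IsMatching ∧ (M.vertsᶜ).ncard = 2} ≤
      Fintype.card V ^ (3 * G.indepNum + 2) *
        Nat.card {M : G.Subgraph // M.IsPerfectMatching} := by
  classical
  have hdata := fun M : {M : G.Subgraph // M.IsMatching ∧ (M.vertsᶜ).ncard = 2} =>
    exists_data G hPM M.1 M.2.1 M.2.2
  choose L w haug hL hconst hfix using hdata
  set Λ := 3 * G.indepNum + 1 with hΛ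
  let Φ : {M : G.Subgraph // M.IsMatching ∧ (M.vertsᶜ).ncard = 2} →
      {M : G.Subgraph // M.IsPerfectMatching} × (Fin (Λ + 1) → V) := fun M =>
    (⟨ofInv G (aug (toInv M.1) (L M) (w M))
        (aug_invol (toInv_invol M.2.1) (hfix M) (haug M))
        (aug_adj (toInv_invol M.2.1) (hfix M) (toInv_adj M.2.1) (haug M)),
      ofInv_perfect _ _ _ _⟩, fun t => w M t)
  have hΦ : Function.Injective Φ := by
    intro M₁ M₂ h
    have hA := congrArg (fun p => p.1.1) h
    have hC := congrArg (fun p => p.2) h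
    simp only [Φ] at hA hC
    have hσ := ofInv_inj G _ _ _ _ hA
    have hc : ∀ t, t ≤ Λ → w M₁ t = w M₂ t := fun t ht =>
      congrFun hC ⟨t, by omega⟩
    -- the lengths agree
    have hlen : ∀ M M' : {M : G.Subgraph // M.IsMatching ∧ (M.vertsᶜ).ncard = 2},
        (∀ t, t ≤ Λ → w M t = w M' t) → ¬ L M < L M' := by
      intro M M' hcc hlt
      have e1 : w M (L M) = w M Λ := (hconst M Λ (hL M)).symm
      have e2 : w M' Λ = w M' (L M') := hconst M' Λ (hL M')
      have e3 : w M' (L M) = w M' (L M') := by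
        rw [← hcc _ (hL M), e1, hcc _ le_rfl, e2]
      have := (haug M').2.2.2.2.1 _ hlt.le _ le_rfl e3
      omega
    have hLL : L M₁ = L M₂ := by
      have a := hlen M₁ M₂ hc
      have b := hlen M₂ M₁ (fun t ht => (hc t ht).symm)
      omega
    have hww : w M₁ = w M₂ := by
      funext t
      by_cases ht : t ≤ Λ
      · exact hc t ht
      · have h1 := hL M₁
        have h2 := hL M₂
        rw [hconst M₁ t (by omega), hconst M₂ t (by omega), hLL]
        exact hc _ h2
    have hτ : toInv M₁.1 = toInv M₂.1 := by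
      have a1 := haug M₁
      have f1 := hfix M₁
      rw [hLL, hww] at a1 f1 hσ
      exact aug_inj (toInv_invol M₁.2.1) (toInv_invol M₂.2.1) f1 (hfix M₂) a1 (haug M₂) hσ
    exact Subtype.ext (toInv_inj M₁.2.1 M₂.2.1 hτ)
  have := Nat.card_le_card_of_injective Φ hΦ
  rw [Nat.card_prod, Nat.card_fun, Nat.card_eq_fintype_card (α := V),
    Nat.card_eq_fintype_card (α := Fin (Λ + 1)), Fintype.card_fin] at this
  rw [mul_comm]
  exact this

end Vale.Agent.Results.P308.BoundedIndepNum
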